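import Vale.Agent.P141.H451.BMnum

/-!
# P141, line (A): numbers for the drift energy `EV`

* `log_ratio4` : `1 + log (1 + 4 lam1 / lam) ≤ 10 (1 + log (r / t))`;
* `log_ratio_gen` : the same with any factor `c`, `0 ≤ c`;
* `sum_tr_GT` : the traces at the root, summed over `x1`.
-/

namespace Vale.Agent.P141.H578

open Matrix Finset
open Vale.Agent.P141.PL (Pt iv ix mem_iv cx)
open Vale.Agent.P141.PL.H315 (Tri)
open Vale.Agent.P141.H677 (GT GT_trace)
open Vale.Agent.P141.H677.Sk (lam1)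
open Vale.Agent.P141.H305 (Cls)

noncomputable section

theorem log_ratio_gen {q : H401.Num} {s r c : ℝ} (ht : 0 < q.t) (ht1 : q.t ≤ 1) (hs : 0 < s)
    (hr : 1 ≤ r) (he0 : 0 ≤ q.e0) (hc : 0 ≤ c) :
    Real.log (1 + c * lam1 q s r / q.lam s r) ≤ c + 10 * Real.log (r / q.t) := by
  have h1 := H451.BM.ratio_le ht ht1 hs hr he0
  have hq : 1 ≤ r / q.t := by rw [le_div_iff₀ ht]; linarith
  have hp : (1 : ℝ) ≤ (r / q.t) ^ (10 : ℕ) := one_le_pow₀ hq
  have hl : 0 ≤ lam1 q s r / q.lam s r := by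
    have hss := Real.sqrt_nonneg s
    have hr0 : 0 ≤ r := by linarith
    unfold H677.Sk.lam1 H401.Num.lam
    positivity
  have e : c * lam1 q s r / q.lam s r = c * (lam1 q s r / q.lam s r) := by ring
  have h2 : Real.log (1 + c * lam1 q s r / q.lam s r) ≤
      Real.log ((1 + c) * (r / q.t) ^ (10 : ℕ)) := by
    refine Real.log_le_log ?_ ?_
    · rw [e]; positivity
    · rw [e]
      have := mul_le_mul_of_nonneg_left h1 hc
      linarith
  rw [Real.log_mul (by positivity) (by positivity), Real.log_pow] at h2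
  have h3 : Real.log (1 + c) ≤ c := by
    have := Real.log_le_sub_one_of_pos (by linarith : (0 : ℝ) < 1 + c)
    linarith
  push_cast at h2
  linarith

theorem log_ratio4 {q : H401.Num} {s r : ℝ} (ht : 0 < q.t) (ht1 : q.t ≤ 1) (hs : 0 < s)
    (hr : 1 ≤ r) (he0 : 0 ≤ q.e0) :
    1 + Real.log (1 + 4 * lam1 q s r / q.lam s r) ≤ 10 * (1 + Real.log (r / q.t)) := by
  have h := log_ratio_gen ht ht1 hs hr he0 (by norm_num : (0 : ℝ) ≤ 4)
  linarith

/-- the same with `4 * h / lam`, `2 h = lam1` -/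
theorem log_ratio_h {q : H401.Num} {s r : ℝ} (ht : 0 < q.t) (ht1 : q.t ≤ 1) (hs : 0 < s)
    (hr : 1 ≤ r) (he0 : 0 ≤ q.e0) :
    1 + Real.log (1 + 4 * (lam1 q s r / 2) / q.lam s r) ≤ 10 * (1 + Real.log (r / q.t)) := by
  have h := log_ratio_gen ht ht1 hs hr he0 (by norm_num : (0 : ℝ) ≤ 2)
  have e : 4 * (lam1 q s r / 2) / q.lam s r = 2 * lam1 q s r / q.lam s r := by ring
  have hq : 0 ≤ Real.log (r / q.t) := Real.log_nonneg (by rw [le_div_iff₀ ht]; linarith)
  rw [e]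
  linarith

/-- positivity of the logarithmic factor -/
theorem log_ratio_nonneg {q : H401.Num} {s r c : ℝ} (ht : 0 < q.t) (hr : 1 ≤ r) (hc : 0 ≤ c) :
    0 ≤ 1 + Real.log (1 + c * lam1 q s r / q.lam s r) := by
  have hl : 0 ≤ c * lam1 q s r / q.lam s r := by
    have hss := Real.sqrt_nonneg s
    have hr0 : 0 ≤ r := by linarith
    unfold H677.Sk.lam1 H401.Num.lam
    positivity
  have := Real.log_nonneg (by linarith : (1 : ℝ) ≤ 1 + c * lam1 q s r / q.lam s r)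
  linarith

variable {ι : Type} [Fintype ι] [DecidableEq ι]

/-- **the traces at the root, summed over `x1`** -/
theorem sum_tr_GT {K : ℕ} {x : Pt} {s r P : ℝ} {U : Tri} {g : ℤ → ℤ → ℝ} {u v : ℤ → ℤ → ι → ℝ}
    (hC : Cls K x s r P U g u v) :
    ∑ x1 ∈ iv K (cx K x).1, (GT u x1 K (cx K x).2.1).trace ≤ 2 ^ K * s := by
  have hm := H58.mass_u hC
  simp only [GT_trace]
  rw [← mul_sum]
  have h2 : (0 : ℝ) < 2 ^ K := by positivity
  refine (mul_le_mul_of_nonneg_left hm (by positivity)).trans (le_of_eq ?_)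
  have h4 : (4 : ℝ) ^ K = 2 ^ K * 2 ^ K := by rw [← mul_pow]; norm_num
  rw [h4]
  field_simp

/-- the number after the sum over `x1` -/
theorem sum_tr_GT8 {K : ℕ} {x : Pt} {s r P : ℝ} {U : Tri} {g : ℤ → ℤ → ℝ}
    {u v : ℤ → ℤ → ι → ℝ} (hC : Cls K x s r P U g u v) {B : ℝ} (hB : 0 ≤ B) :
    ∑ x1 ∈ iv K (cx K x).1, B * (4 ^ K * (GT u x1 K (cx K x).2.1).trace) ≤ B * (s * 8 ^ K) := by
  have h := sum_tr_GT hC
  have e : ∑ x1 ∈ iv K (cx K x).1, B * (4 ^ K * (GT u x1 K (cx K x).2.1).trace) =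
      B * (4 ^ K * ∑ x1 ∈ iv K (cx K x).1, (GT u x1 K (cx K x).2.1).trace) := by
    rw [mul_sum, mul_sum]
  rw [e]
  refine mul_le_mul_of_nonneg_left ?_ hB
  refine (mul_le_mul_of_nonneg_left h (by positivity)).trans (le_of_eq ?_)
  have h8 : (8 : ℝ) ^ K = 4 ^ K * 2 ^ K := by rw [← mul_pow]; norm_num
  rw [h8]
  ring

end

end Vale.Agent.P141.H578
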