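import Vale.Agent.P141.H170.UEh

/-!
# P141, line W: the saturated mixed charge of a label event

A label event changes the input `F` of the pair functional by an orthogonal projection of the
middle variable.  `H170.UEv` charges the removed part by `tr (P X_F P X_H)`; for a partner `H` of
which only the `L²` size is known the charge has to be kept saturated, `tr (P X_F P φ(X_H))`, which
is at most `|P X_F P|_HS (tr P X_H)^(1/2)`.
-/

namespace Vale.Agent.P141.H578

open Finset Matrix Vale.Agent.P075 Vale.Agent.P141.PL Vale.Agent.P141.PL.H588 Vale.Agent.P141.H736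
open Vale.Agent.P141.H170

noncomputable section

open scoped Classical

/-! ### matrices -/

section mat

variable {n : Type*} [Fintype n] [DecidableEq n]

/-- trace form of `phi_split`, saturated on both sides -/
theorem trace_phi_split_sat {X P Y : Matrix n n ℝ} (hX : X.PosSemidef) (hP : Prj P)
    (hY : Y.PosSemidef) {ε : ℝ} (hε : 0 < ε) :
    (phi X * phi Y).trace ≤ (1 + ε) * (phi ((1 - P) * X * (1 - P)) * phi Y).trace
      + (1 + ε⁻¹) * (P * X * P * phi Y).trace := by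
  have h1 := trace_mul_le_left (phi_psd hY) (phi_split hX hP hε)
  rwa [Matrix.add_mul, trace_add, Matrix.smul_mul, Matrix.smul_mul, trace_smul, trace_smul,
    smul_eq_mul, smul_eq_mul] at h1

/-- `P φ(Y) P ≤ 1` -/
theorem one_sub_prj_phi {P Y : Matrix n n ℝ} (hP : Prj P) (hY : Y.PosSemidef) :
    ((1 : ℝ) • (1 : Matrix n n ℝ) - P * phi Y * P).PosSemidef := by
  have h1 : (P * (1 - phi Y) * P).PosSemidef := psd_conj_symm (one_sub_phi_psd hY) hP.1
  have h2 := hP.one_sub_psd.add h1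
  have e : (1 : ℝ) • (1 : Matrix n n ℝ) - P * phi Y * P = 1 - P + P * (1 - phi Y) * P := by
    rw [one_smul, Matrix.mul_sub, Matrix.sub_mul, Matrix.mul_one, hP.2]
    abel
  rw [e]
  exact h2

/-- `|P φ(Y) P|_HS² ≤ tr P Y` -/
theorem hs_prj_phi_sq_le {P Y : Matrix n n ℝ} (hP : Prj P) (hY : Y.PosSemidef) :
    hs (P * phi Y * P) ^ 2 ≤ (P * Y).trace := by
  have h1 := hs_sq_le_cap (psd_conj_symm (phi_psd hY) hP.1) (one_sub_prj_phi hP hY)
  rw [one_mul, hP.trace] at h1
  exact h1.trans (trace_mul_le_right hP.psd (H804.phi_le_self hY))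

/-- **the saturated mixed charge**: `tr (P X P φ(Y)) ≤ |P X P|_HS (tr P Y)^(1/2)` -/
theorem trace_sat_le {X P Y : Matrix n n ℝ} (hX : X.PosSemidef) (hP : Prj P)
    (hY : Y.PosSemidef) :
    (P * X * P * phi Y).trace ≤ hs (P * X * P) * √((P * Y).trace) := by
  refine (trace_prj_le (phi Y) hP hX).trans (mul_le_mul_of_nonneg_left ?_ (hs_nonneg _))
  exact Real.le_sqrt_of_sq_le (hs_prj_phi_sq_le hP hY)

/-- `|P Y P|_HS ≤ |Y|_HS` -/
theorem hs_prj_le {P Y : Matrix n n ℝ} (hP : Prj P) (hY : Y.PosSemidef) :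
    hs (P * Y * P) ≤ hs Y := by
  have hPY : (P * Y * P).PosSemidef := psd_conj_symm hY hP.1
  have h : (P * Y * P).trace = (P * Y).trace := hP.trace Y
  refine abs_le_of_sq_le_sq' ?_ (hs_nonneg _) |>.2
  rw [hs_sq_psd hPY, hs_sq_psd hY]
  have e : (P * Y * P * (P * Y * P)).trace = (Y * P * Y * P).trace := by
    calc (P * Y * P * (P * Y * P)).trace = (P * (Y * (P * P) * Y * P)).trace := by
          simp only [Matrix.mul_assoc]
      _ = (Y * (P * P) * Y * P * P).trace := trace_mul_comm _ _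
      _ = (Y * (P * P) * Y * (P * P)).trace := by simp only [Matrix.mul_assoc]
      _ = _ := by rw [hP.2]
  rw [e]
  have h1 : (Y * P * Y * P).trace ≤ (Y * P * Y * 1).trace :=
    trace_mul_le_right (psd_conj_symm hP.psd (psd_isSymm hY)) hP.one_sub_psd
  have h2 : (Y * P * Y * 1).trace ≤ (Y * Y).trace := by
    have e2 : (Y * P * Y * 1).trace = (Y * Y * P).trace := by
      rw [Matrix.mul_one, trace_mul_comm, ← Matrix.mul_assoc]
    rw [e2]
    have h3 := trace_mul_le_right (U := Y * Y) (psd_sq (psd_isSymm hY)) hP.one_sub_psd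
    rwa [Matrix.mul_one] at h3
  exact h1.trans h2

/-- the saturated mixed charge against the whole of `Y` -/
theorem trace_sat_le_hs {X P Y : Matrix n n ℝ} (hX : X.PosSemidef) (hP : Prj P)
    (hY : Y.PosSemidef) :
    (P * X * P * phi Y).trace ≤ hs (P * X * P) * hs Y :=
  (trace_prj_le (phi Y) hP hX).trans (mul_le_mul_of_nonneg_left
    ((hs_prj_le hP (phi_psd hY)).trans (hs_phi_le hY)) (hs_nonneg _))

end mat

/-! ### blocks -/

/-- the saturated energy of the product of the removed parts -/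
def mxs (N : ℕ) (R S T : ℤ) (k : ℕ) (c : ℤ) (P : ℤ → ℤ → Matrix (Ix k) (Ix k) ℝ)
    (F H : ℤ → ℤ → ℝ) : ℝ :=
  (4 : ℝ) ^ k * ∑ m ∈ iv (N - k) S, ∑ n ∈ iv (N - k) R,
    if c - m - n ∈ iv (N - k) T then
      (P n m * Xg k k F n m * P n m * phi (Xg k k H (c - m - n) m)).trace else 0

/-- the bound of the saturated charge: `|P X_F P|_HS (tr P X_H)^(1/2)` on the changed squares -/
def mxb (N : ℕ) (R S T : ℤ) (k : ℕ) (c : ℤ) (P : ℤ → ℤ → Matrix (Ix k) (Ix k) ℝ)
    (F H : ℤ → ℤ → ℝ) : ℝ :=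
  (4 : ℝ) ^ k * ∑ m ∈ iv (N - k) S, ∑ n ∈ iv (N - k) R,
    if c - m - n ∈ iv (N - k) T ∧ P n m ≠ 0 then
      hs (P n m * Xg k k F n m * P n m) * √((P n m * Xg k k H (c - m - n) m).trace) else 0

theorem mxs_le (N : ℕ) (R S T : ℤ) (k : ℕ) (c : ℤ) {P : ℤ → ℤ → Matrix (Ix k) (Ix k) ℝ}
    (F H : ℤ → ℤ → ℝ) (hP : ∀ n ∈ iv (N - k) R, ∀ m ∈ iv (N - k) S, Prj (P n m)) :
    mxs N R S T k c P F H ≤ mxb N R S T k c P F H := by
  unfold mxs mxb
  refine mul_le_mul_of_nonneg_left (sum_le_sum fun m hm => sum_le_sum fun n hn => ?_)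
    (by positivity)
  by_cases hc : c - m - n ∈ iv (N - k) T
  · by_cases h0 : P n m = 0
    · rw [if_pos hc, if_neg (fun h => h.2 h0), h0]
      simp
    · rw [if_pos hc, if_pos ⟨hc, h0⟩]
      exact trace_sat_le (Xg_psd k k F n m) (hP n hn m hm) (Xg_psd k k H (c - m - n) m)
  · rw [if_neg hc, if_neg (fun h => hc h.1)]

theorem mxs_nonneg (N : ℕ) (R S T : ℤ) (k : ℕ) (c : ℤ) {P : ℤ → ℤ → Matrix (Ix k) (Ix k) ℝ}
    (F H : ℤ → ℤ → ℝ) (hP : ∀ n ∈ iv (N - k) R, ∀ m ∈ iv (N - k) S, Prj (P n m)) :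
    0 ≤ mxs N R S T k c P F H := by
  unfold mxs
  refine mul_nonneg (by positivity) (sum_nonneg fun m hm => sum_nonneg fun n hn => ?_)
  split_ifs
  · exact trace_mul_nonneg (psd_conj_symm (Xg_psd k k F n m) (hP n hn m hm).1)
      (phi_psd (Xg_psd k k H (c - m - n) m))
  · exact le_rfl

theorem mxb_nonneg (N : ℕ) (R S T : ℤ) (k : ℕ) (c : ℤ) (P : ℤ → ℤ → Matrix (Ix k) (Ix k) ℝ)
    (F H : ℤ → ℤ → ℝ) : 0 ≤ mxb N R S T k c P F H := by
  unfold mxb
  refine mul_nonneg (by positivity) (sum_nonneg fun m _ => sum_nonneg fun n _ => ?_)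
  split_ifs
  · exact mul_nonneg (hs_nonneg _) (Real.sqrt_nonneg _)
  · exact le_rfl

/-- **change of the mixed energy**, `H` static, saturated charge -/
theorem Mk_mid_sat (N : ℕ) (R S T : ℤ) (k : ℕ) (c : ℤ) {P : ℤ → ℤ → Matrix (Ix k) (Ix k) ℝ}
    {F F' : ℤ → ℤ → ℝ} (H : ℤ → ℤ → ℝ) (hP : MidP N R S k P F F') {ε : ℝ} (hε : 0 < ε) :
    Mk N R S T k c F H ≤ Mk N R S T k c F' H
      + (ε * mxe N R S T k c P F' H + (1 + ε⁻¹) * mxs N R S T k c P F H) := by
  have key : ∑ m ∈ iv (N - k) S, ∑ n ∈ iv (N - k) R,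
      (if c - m - n ∈ iv (N - k) T then
        (phi (Xg k k F n m) * phi (Xg k k H (c - m - n) m)).trace else 0)
      ≤ ∑ m ∈ iv (N - k) S, ∑ n ∈ iv (N - k) R,
        ((if c - m - n ∈ iv (N - k) T then
          (phi (Xg k k F' n m) * phi (Xg k k H (c - m - n) m)).trace else 0)
        + (ε * (if c - m - n ∈ iv (N - k) T ∧ P n m ≠ 0 then
          (phi (Xg k k F' n m) * phi (Xg k k H (c - m - n) m)).trace else 0)
        + (1 + ε⁻¹) * (if c - m - n ∈ iv (N - k) T then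
          (P n m * Xg k k F n m * P n m * phi (Xg k k H (c - m - n) m)).trace else 0))) := by
    refine sum_le_sum fun m hm => sum_le_sum fun n hn => ?_
    by_cases hc : c - m - n ∈ iv (N - k) T
    · rw [if_pos hc, if_pos hc, if_pos hc]
      by_cases h0 : P n m = 0
      · have e := hP.Xg_eq hn hm
        rw [h0, sub_zero, Matrix.one_mul, Matrix.mul_one] at e
        rw [if_neg (fun h => h.2 h0), e, h0]
        simp
      · rw [if_pos ⟨hc, h0⟩, hP.Xg_eq hn hm]
        have := trace_phi_split_sat (Xg_psd k k F n m) (hP n hn m hm).1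
          (Xg_psd k k H (c - m - n) m) hε
        linarith
    · rw [if_neg hc, if_neg hc, if_neg (fun h => hc h.1), if_neg hc]
      simp
  unfold Mk mxe mxs
  have h := mul_le_mul_of_nonneg_left key (by positivity : (0 : ℝ) ≤ 4 ^ k)
  refine h.trans (le_of_eq ?_)
  simp only [sum_add_distrib, ← mul_sum]
  ring

/-- **Change of the functional under projections in the middle variable**, `H` static, energies
charged in HS form (no caps), mixed charge saturated. -/
theorem BF_mid_hs_sat {N k : ℕ} (h : k ≤ N) (R S T : ℤ) (c : ℕ → ℤ)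
    {P : ℤ → ℤ → Matrix (Ix k) (Ix k) ℝ} {F F' : ℤ → ℤ → ℝ} (H : ℤ → ℤ → ℝ)
    (hP : MidP N R S k P F F') (hA : Agree N R S k (evP P) F F') {ε : ℝ} (hε : 0 < ε) :
    BF N R S T c k (F, H) ≤ BF N R S T c k (F', H)
      + (28 * ch N R S k 0 (evP P) F F' + 128 * chW N R S k (evP P) F F'
        + 2 * (ε * mxe N R S T k (c k) P F' H + (1 + ε⁻¹) * mxs N R S T k (c k) P F H)) := by
  have a1 := Mk_mid_sat N R S T k (c k) H hP hε
  have a2 := en_hs (r := 0) (by omega) R S hA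
  have a3 := Wt_hs h R S hA
  rw [Nat.add_zero] at a2
  unfold BF
  simp only
  linarith

/-- **Path form with label events, HS charges, mixed charge saturated.** -/
theorem sum_mnk_mid_sat {N : ℕ} (R S T : ℤ) {c : ℕ → ℤ} (hc : Pl c)
    {P : (k : ℕ) → ℤ → ℤ → Matrix (Ix k) (Ix k) ℝ} {Q Q' : ℕ → ℤ → ℤ → Prop}
    {F G H : ℕ → ℤ → ℤ → ℝ} {κ₃ κ' ε : ℝ}
    (hF : ∀ k < N, MidP N R S k (P k) (F (k + 1)) (G k))
    (hG : ∀ k < N, Agree N R S k (Q k) (G k) (F k)) (hH : Path N T S Q' H)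
    (hF0 : F 0 = 0) (hH0 : H 0 = 0) (hε : 0 < ε)
    (h3 : ∀ k < N, CapX N R S k κ₃ (G k)) (hκ' : ∀ k < N, CapX N T S k κ' (H (k + 1))) :
    ∑ k ∈ Icc 1 N, mnk N R S T k (c k) (F k) (H k)
      ≤ ∑ k ∈ range N, ((28 * ch N R S k 0 (evP (P k)) (F (k + 1)) (G k)
          + 128 * chW N R S k (evP (P k)) (F (k + 1)) (G k)
          + 2 * (ε * mxe N R S T k (c k) (P k) (G k) (H (k + 1))
            + (1 + ε⁻¹) * mxs N R S T k (c k) (P k) (F (k + 1)) (H (k + 1))))
        + (2 * mix N R S T k (c k) (Q k) (Q' k) (G k) (H (k + 1))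
          + 540 * (κ₃ * sqQ N R S k (Q k) (G k))
          + 540 * (κ' * sqQ N T S k (Q' k) (H (k + 1))))) := by
  refine sum_mnk_of_change R S T hc hF0 hH0 fun k hk' => ?_
  have a1 := BF_mid_hs_sat (k := k) (by omega) R S T c (H (k + 1)) (hF k hk') (hF k hk').agree hε
  have a2 := BF_change (k := k) (by omega) R S T c (hG k hk') (hH k hk') (h3 k hk') (hκ' k hk')
  linarith

end

end Vale.Agent.P141.H578
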