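import Mathlib

/-!
# P141, CE, module C12: the order of the constants of CE (pure reals)

* `mt t s a b = t ^ a * s ^ b`: monomials, their products, roots, powers, monotonicity;
* `exists_hts`: number of heights, `(1/2) ^ N ≤ t ^ x` and `N ^ k ≤ C t ^ (-δ)`;
* `exists_small`: a constant absorbed by a power of `t`;
* `u4_num`, `e2_num`: the three terms of the U4 estimate and the own energy of the current part;
* `kap_num`, `exists_outer`: the outer exponents `g, c, a, a', d`;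
* `CN`: the explicit choice of the inner exponents and the inequalities.
-/

namespace Vale.Agent.P141.H578

open Real

noncomputable section

/-! ### Monomials -/

/-- monomials in the level `t` and in the mass `s` -/
def mt (t s a b : ℝ) : ℝ := t ^ a * s ^ b

section mono

variable {t s : ℝ}

theorem mt_pos (ht : 0 < t) (hs : 0 < s) (a b : ℝ) : 0 < mt t s a b :=
  mul_pos (rpow_pos_of_pos ht _) (rpow_pos_of_pos hs _)

theorem mt_mul (ht : 0 < t) (hs : 0 < s) (a b a' b' : ℝ) :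
    mt t s a b * mt t s a' b' = mt t s (a + a') (b + b') := by
  unfold mt
  rw [rpow_add ht, rpow_add hs]
  ring

theorem mt_rpow (ht : 0 < t) (hs : 0 < s) (a b r : ℝ) :
    mt t s a b ^ r = mt t s (a * r) (b * r) := by
  unfold mt
  rw [mul_rpow (rpow_nonneg ht.le _) (rpow_nonneg hs.le _), ← rpow_mul ht.le, ← rpow_mul hs.le]

theorem mt_pow (ht : 0 < t) (hs : 0 < s) (a b : ℝ) (n : ℕ) :
    mt t s a b ^ n = mt t s (a * n) (b * n) := by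
  rw [← rpow_natCast, mt_rpow ht hs]

theorem mt_sqrt (ht : 0 < t) (hs : 0 < s) (a b : ℝ) :
    √(mt t s a b) = mt t s (a / 2) (b / 2) := by
  rw [sqrt_eq_rpow, mt_rpow ht hs]
  congr 1 <;> ring

theorem mt_inv (ht : 0 < t) (hs : 0 < s) (a b : ℝ) :
    (mt t s a b)⁻¹ = mt t s (-a) (-b) := by
  unfold mt
  rw [mul_inv, rpow_neg ht.le, rpow_neg hs.le]

theorem mt_div (ht : 0 < t) (hs : 0 < s) (a b a' b' : ℝ) :
    mt t s a b / mt t s a' b' = mt t s (a - a') (b - b') := by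
  rw [div_eq_mul_inv, mt_inv ht hs, mt_mul ht hs]
  congr 1

theorem mt_one : mt t s 0 0 = 1 := by
  unfold mt
  rw [rpow_zero, rpow_zero, one_mul]

theorem mt_t (a : ℝ) : mt t s a 0 = t ^ a := by
  unfold mt
  rw [rpow_zero, mul_one]

theorem mt_s (b : ℝ) : mt t s 0 b = s ^ b := by
  unfold mt
  rw [rpow_zero, one_mul]

theorem mt_s1 : mt t s 0 1 = s := by
  rw [mt_s, rpow_one]

theorem mt_t1 : mt t s 1 0 = t := by
  rw [mt_t, rpow_one]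

/-- a larger exponent of `t` gives a smaller number -/
theorem mt_le (ht : 0 < t) (ht1 : t ≤ 1) (hs : 0 < s) {a a' : ℝ} (h : a' ≤ a) (b : ℝ) :
    mt t s a b ≤ mt t s a' b :=
  mul_le_mul_of_nonneg_right (rpow_le_rpow_of_exponent_ge ht ht1 h) (rpow_nonneg hs.le _)

/-- the same with constants -/
theorem cmt_le (ht : 0 < t) (ht1 : t ≤ 1) (hs : 0 < s) {a a' C C' : ℝ} (h : a' ≤ a) (b : ℝ)
    (hC : C ≤ C') (hC' : 0 ≤ C') : C * mt t s a b ≤ C' * mt t s a' b :=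
  mul_le_mul hC (mt_le ht ht1 hs h b) (mt_pos ht hs _ _).le hC'

end mono

/-! ### Absorption of constants and logarithms -/

/-- a constant is absorbed by a power of `t` -/
theorem exists_small {δ : ℝ} (hδ : 0 < δ) (C : ℝ) :
    ∃ t0 : ℝ, 0 < t0 ∧ t0 ≤ 1 ∧ ∀ t, 0 < t → t ≤ t0 → C * t ^ δ ≤ 1 := by
  set D := max C 1 with hD
  have hD1 : 1 ≤ D := le_max_right _ _
  have hD0 : 0 < D := by linarith
  refine ⟨(D⁻¹) ^ (δ⁻¹), by positivity, ?_, fun t ht h => ?_⟩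
  · exact rpow_le_one (inv_nonneg.2 hD0.le) (inv_le_one_of_one_le₀ hD1) (inv_nonneg.2 hδ.le)
  · have h1 : t ^ δ ≤ D⁻¹ := by
      have h2 := rpow_le_rpow ht.le h hδ.le
      rwa [← rpow_mul (inv_nonneg.2 hD0.le), inv_mul_cancel₀ hδ.ne', rpow_one] at h2
    have h3 : 0 ≤ t ^ δ := rpow_nonneg ht.le _
    calc C * t ^ δ ≤ D * t ^ δ := mul_le_mul_of_nonneg_right (le_max_left _ _) h3
      _ ≤ D * D⁻¹ := mul_le_mul_of_nonneg_left h1 hD0.le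
      _ = 1 := mul_inv_cancel₀ hD0.ne'

/-- **the number of heights**: cut at `t ^ x`, any power of the number costs only `t ^ (-δ)` -/
theorem exists_hts {x δ : ℝ} (hx : 0 ≤ x) (hδ : 0 < δ) (k : ℕ) :
    ∃ C : ℝ, 0 ≤ C ∧ ∀ t, 0 < t → t ≤ 1 →
      ∃ N : ℕ, (1 / 2 : ℝ) ^ N ≤ t ^ x ∧ (N : ℝ) ^ k ≤ C * t ^ (-δ) := by
  have hl2 : 0 < log 2 := log_pos one_lt_two
  set ε : ℝ := δ / (k + 1) with hε
  have hk : (0 : ℝ) < (k : ℝ) + 1 := by positivity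
  have hε0 : 0 < ε := div_pos hδ hk
  refine ⟨(x / (ε * log 2) + 1) ^ k, by positivity, fun t ht ht1 => ?_⟩
  have hlt : 0 ≤ log t⁻¹ := log_nonneg ((one_le_inv₀ ht).2 ht1)
  set L : ℝ := x * log t⁻¹ / log 2 with hL
  have hL0 : 0 ≤ L := by positivity
  refine ⟨⌈L⌉₊, ?_, ?_⟩
  · have h1 : L ≤ (⌈L⌉₊ : ℝ) := Nat.le_ceil L
    calc (1 / 2 : ℝ) ^ ⌈L⌉₊ = (1 / 2 : ℝ) ^ (⌈L⌉₊ : ℝ) := (rpow_natCast _ _).symm
      _ ≤ (1 / 2 : ℝ) ^ L := rpow_le_rpow_of_exponent_ge (by norm_num) (by norm_num) h1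
      _ = t ^ x := by
        rw [rpow_def_of_pos (by norm_num : (0 : ℝ) < 1 / 2), rpow_def_of_pos ht]
        congr 1
        rw [hL, one_div, log_inv, log_inv]
        field_simp
  · have h1 : (⌈L⌉₊ : ℝ) ≤ L + 1 := (Nat.ceil_lt_add_one hL0).le
    have h2 : log t⁻¹ ≤ t⁻¹ ^ ε / ε := log_le_rpow_div (inv_nonneg.2 ht.le) hε0
    have h3 : t⁻¹ ^ ε = t ^ (-ε) := by rw [inv_rpow ht.le, rpow_neg ht.le]
    have h4 : 1 ≤ t ^ (-ε) := one_le_rpow_of_pos_of_le_one_of_nonpos ht ht1 (by linarith)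
    have h5 : (⌈L⌉₊ : ℝ) ≤ (x / (ε * log 2) + 1) * t ^ (-ε) := by
      have h6 : L ≤ x / (ε * log 2) * t ^ (-ε) := by
        rw [hL]
        calc x * log t⁻¹ / log 2 ≤ x * (t ^ (-ε) / ε) / log 2 := by
              rw [← h3]; gcongr
          _ = _ := by field_simp
      nlinarith
    have h7 : (0 : ℝ) ≤ (⌈L⌉₊ : ℝ) := Nat.cast_nonneg _
    calc (⌈L⌉₊ : ℝ) ^ k ≤ ((x / (ε * log 2) + 1) * t ^ (-ε)) ^ k := pow_le_pow_left₀ h7 h5 k
      _ = (x / (ε * log 2) + 1) ^ k * t ^ (-ε * k) := by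
        rw [mul_pow, ← rpow_natCast (t ^ (-ε)) k, ← rpow_mul ht.le]
      _ ≤ (x / (ε * log 2) + 1) ^ k * t ^ (-δ) := by
        refine mul_le_mul_of_nonneg_left (rpow_le_rpow_of_exponent_ge ht ht1 ?_) (by positivity)
        have h8 : ε * (k + 1) = δ := by rw [hε]; field_simp
        nlinarith

/-! ### The U4 numbers -/

/-- one term of the U4 estimate -/
theorem u4_term {t s d W R A c be ka y p q r : ℝ} (ht : 0 < t) (ht1 : t ≤ 1) (hs : 0 < s)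
    (hA : 1 ≤ A) (hd : 0 ≤ d) (hd' : d ≤ A * t ^ (1 - c)) (hW : 0 ≤ W)
    (hW' : W ≤ A * (t ^ be * √s)) (hR : 0 ≤ R) (hR' : R ≤ A * (t ^ (-ka) * √s))
    (hp : 0 ≤ p) (hp2 : p ≤ 2) (hq : 0 ≤ q) (hr : 0 ≤ r) (hqr : q + r = 1)
    (hy : 2 + y ≤ (1 - c) * p + be * q - ka * r) :
    d ^ p * (W ^ q * R ^ r) ≤ A ^ 3 * (t ^ (2 + y) * √s) := by
  have hA0 : 0 < A := by linarith
  have e1 : t ^ be * √s = mt t s be (1 / 2) := by rw [sqrt_eq_rpow]; rfl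
  have e2 : t ^ (-ka) * √s = mt t s (-ka) (1 / 2) := by rw [sqrt_eq_rpow]; rfl
  have e3 : t ^ (2 + y) * √s = mt t s (2 + y) (1 / 2) := by rw [sqrt_eq_rpow]; rfl
  have e4 : t ^ (1 - c) = mt t s (1 - c) 0 := (mt_t _).symm
  rw [e1] at hW'
  rw [e2] at hR'
  rw [e4] at hd'
  rw [e3]
  have h1 : d ^ p ≤ A ^ p * mt t s ((1 - c) * p) 0 := by
    refine (rpow_le_rpow hd hd' hp).trans (le_of_eq ?_)
    rw [mul_rpow hA0.le (mt_pos ht hs _ _).le, mt_rpow ht hs, zero_mul]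
  have h2 : W ^ q ≤ A ^ q * mt t s (be * q) (1 / 2 * q) := by
    refine (rpow_le_rpow hW hW' hq).trans (le_of_eq ?_)
    rw [mul_rpow hA0.le (mt_pos ht hs _ _).le, mt_rpow ht hs]
  have h3 : R ^ r ≤ A ^ r * mt t s (-ka * r) (1 / 2 * r) := by
    refine (rpow_le_rpow hR hR' hr).trans (le_of_eq ?_)
    rw [mul_rpow hA0.le (mt_pos ht hs _ _).le, mt_rpow ht hs]
  have h4 : W ^ q * R ^ r ≤ A * mt t s (be * q - ka * r) (1 / 2) := by
    refine (mul_le_mul h2 h3 (rpow_nonneg hR _)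
      (mul_nonneg (rpow_nonneg hA0.le _) (mt_pos ht hs _ _).le)).trans (le_of_eq ?_)
    rw [mul_mul_mul_comm, mt_mul ht hs, ← rpow_add hA0, hqr, rpow_one]
    congr 1
    have e5 : 1 / 2 * q + 1 / 2 * r = 1 / 2 := by linarith
    rw [e5]
    congr 1
    ring
  have h5 : A ^ p * A ≤ A ^ 3 := by
    have h6 : A ^ p ≤ A ^ (2 : ℝ) := rpow_le_rpow_of_exponent_le hA hp2
    rw [show (2 : ℝ) = ((2 : ℕ) : ℝ) by norm_num, rpow_natCast] at h6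
    calc A ^ p * A ≤ A ^ 2 * A := mul_le_mul_of_nonneg_right h6 hA0.le
      _ = A ^ 3 := by ring
  calc d ^ p * (W ^ q * R ^ r)
      ≤ (A ^ p * mt t s ((1 - c) * p) 0) * (A * mt t s (be * q - ka * r) (1 / 2)) :=
        mul_le_mul h1 h4 (mul_nonneg (rpow_nonneg hW _) (rpow_nonneg hR _))
          (mul_nonneg (rpow_nonneg hA0.le _) (mt_pos ht hs _ _).le)
    _ = (A ^ p * A) * mt t s ((1 - c) * p + (be * q - ka * r)) (0 + 1 / 2) := by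
        rw [mul_mul_mul_comm, mt_mul ht hs]
    _ ≤ A ^ 3 * mt t s (2 + y) (1 / 2) := by
        rw [zero_add]
        exact cmt_le ht ht1 hs (by linarith) _ h5 (by positivity)

/-- **the three powers of the U4 estimate** (703's `u4T d W R`, unfolded) -/
theorem u4_num {t s d W R A c be ka y : ℝ} (ht : 0 < t) (ht1 : t ≤ 1) (hs : 0 < s)
    (hA : 1 ≤ A) (hd : 0 ≤ d) (hd' : d ≤ A * t ^ (1 - c)) (hW : 0 ≤ W)
    (hW' : W ≤ A * (t ^ be * √s)) (hR : 0 ≤ R) (hR' : R ≤ A * (t ^ (-ka) * √s))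
    (h1 : y ≤ 2 / 3 * (be - 1) - ka / 3 - 4 / 3 * c)
    (h2 : y ≤ 3 / 5 * be - 2 / 5 - 2 / 5 * ka - 8 / 5 * c)
    (h3 : y ≤ 7 / 12 * be - 1 / 3 - 5 / 12 * ka - 5 / 3 * c) :
    d ^ (5 / 3 : ℝ) * (W ^ (7 / 12 : ℝ) * R ^ (5 / 12 : ℝ)) +
      d ^ (8 / 5 : ℝ) * (W ^ (3 / 5 : ℝ) * R ^ (2 / 5 : ℝ)) +
      d ^ (4 / 3 : ℝ) * (W ^ (2 / 3 : ℝ) * R ^ (1 / 3 : ℝ)) ≤
    3 * A ^ 3 * (t ^ (2 + y) * √s) := by
  have k1 := u4_term (y := y) (p := 5 / 3) (q := 7 / 12) (r := 5 / 12) ht ht1 hs hA hd hd' hW hW' hR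
    hR' (by norm_num) (by norm_num) (by norm_num) (by norm_num) (by norm_num) (by linarith)
  have k2 := u4_term (y := y) (p := 8 / 5) (q := 3 / 5) (r := 2 / 5) ht ht1 hs hA hd hd' hW hW' hR
    hR' (by norm_num) (by norm_num) (by norm_num) (by norm_num) (by norm_num) (by linarith)
  have k3 := u4_term (y := y) (p := 4 / 3) (q := 2 / 3) (r := 1 / 3) ht ht1 hs hA hd hd' hW hW' hR
    hR' (by norm_num) (by norm_num) (by norm_num) (by norm_num) (by norm_num) (by linarith)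
  linarith

/-- mass times its root, on a square where the mass is at most `A t^(-ρ) s` -/
theorem mass_root {t s A ρ m : ℝ} (ht : 0 < t) (hs : 0 < s) (hA : 1 ≤ A) (hm : 0 ≤ m)
    (hm' : m ≤ A * (t ^ (-ρ) * s)) : m * √m ≤ A * (t ^ (-(ρ / 2)) * (√s * m)) := by
  have hA0 : 0 < A := by linarith
  have h1 : √m ≤ A * (t ^ (-(ρ / 2)) * √s) := by
    refine sqrt_le_iff.2 ⟨by positivity, hm'.trans ?_⟩
    have e1 : (t ^ (-(ρ / 2))) ^ 2 = t ^ (-ρ) := by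
      rw [← rpow_natCast, ← rpow_mul ht.le]
      congr 1
      push_cast
      ring
    rw [mul_pow, mul_pow, e1, sq_sqrt hs.le]
    have h2 : A ≤ A ^ 2 := by nlinarith
    exact mul_le_mul_of_nonneg_right h2 (by positivity)
  calc m * √m ≤ m * (A * (t ^ (-(ρ / 2)) * √s)) := mul_le_mul_of_nonneg_left h1 hm
    _ = _ := by ring

/-- **the left-in part**: mass at most `m0 (m + s)`, `m0 ≤ A t^μ`, on an alive square -/
theorem left_root {t s A ρ μ m m0 τ : ℝ} (ht : 0 < t) (ht1 : t ≤ 1) (hs : 0 < s) (hA : 1 ≤ A)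
    (hρ : 0 ≤ ρ) (hm : 0 ≤ m) (hm' : m ≤ A * (t ^ (-ρ) * s))
    (hm0' : m0 ≤ A * t ^ μ) (hτ : τ ≤ m0 * (m + s)) :
    τ * √τ ≤ 2 * A ^ 3 * (t ^ (3 / 2 * μ - ρ / 2) * (√s * (m + s))) := by
  have hA0 : 0 < A := by linarith
  have htr : 1 ≤ t ^ (-ρ) := one_le_rpow_of_pos_of_le_one_of_nonpos ht ht1 (by linarith)
  have h1 : m + s ≤ 2 * A * (t ^ (-ρ) * s) := by
    have h2 : s ≤ A * (t ^ (-ρ) * s) := by
      have h3 : (1 : ℝ) ≤ A * t ^ (-ρ) := one_le_mul_of_one_le_of_one_le hA htr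
      calc s = 1 * s := (one_mul s).symm
        _ ≤ A * t ^ (-ρ) * s := mul_le_mul_of_nonneg_right h3 hs.le
        _ = _ := by ring
    linarith
  have hτ1 : τ ≤ A * t ^ μ * (m + s) := hτ.trans (mul_le_mul_of_nonneg_right hm0' (by linarith))
  have h4 : √τ ≤ 2 * A * (t ^ (μ / 2 - ρ / 2) * √s) := by
    refine sqrt_le_iff.2 ⟨by positivity, ?_⟩
    have e1 : (t ^ (μ / 2 - ρ / 2)) ^ 2 = t ^ μ * t ^ (-ρ) := by
      rw [← rpow_natCast, ← rpow_mul ht.le, ← rpow_add ht]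
      congr 1
      push_cast
      ring
    have e3 : (2 * A * (t ^ (μ / 2 - ρ / 2) * √s)) ^ 2 =
        (2 * A) ^ 2 * ((t ^ (μ / 2 - ρ / 2)) ^ 2 * √s ^ 2) := by ring
    rw [e3, e1, sq_sqrt hs.le]
    calc τ ≤ A * t ^ μ * (m + s) := hτ1
      _ ≤ A * t ^ μ * (2 * A * (t ^ (-ρ) * s)) := mul_le_mul_of_nonneg_left h1 (by positivity)
      _ = 2 * A ^ 2 * (t ^ μ * t ^ (-ρ) * s) := by ring
      _ ≤ (2 * A) ^ 2 * (t ^ μ * t ^ (-ρ) * s) := by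
        refine mul_le_mul_of_nonneg_right ?_ (by positivity)
        nlinarith [sq_nonneg A]
  have e2 : t ^ μ * t ^ (μ / 2 - ρ / 2) = t ^ (3 / 2 * μ - ρ / 2) := by
    rw [← rpow_add ht]
    congr 1
    ring
  calc τ * √τ ≤ (A * t ^ μ * (m + s)) * (2 * A * (t ^ (μ / 2 - ρ / 2) * √s)) :=
        mul_le_mul hτ1 h4 (sqrt_nonneg _) (by positivity)
    _ = 2 * A ^ 2 * ((t ^ μ * t ^ (μ / 2 - ρ / 2)) * (√s * (m + s))) := by ring
    _ = 2 * A ^ 2 * (t ^ (3 / 2 * μ - ρ / 2) * (√s * (m + s))) := by rw [e2]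
    _ ≤ _ := by
        refine mul_le_mul_of_nonneg_right ?_ (by positivity)
        nlinarith [sq_nonneg A]

/-- **the own energy of the current part** (703's `e2H`, right side, with the three numbers
`c1, c2, c3`), on an alive square: at most `C t^(2+z) s^(1/2) (m + s)`. -/
theorem e2_num {t s d e W R A c be ka y ρ μ x δ z m m0 τ CN c1 c2 c3 : ℝ} {N : ℕ}
    (ht : 0 < t) (ht1 : t ≤ 1) (hs : 0 < s) (hA : 1 ≤ A) (he : 1 ≤ e) (hρ : 0 ≤ ρ)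
    (hd : 0 ≤ d) (hd' : d ≤ A * t ^ (1 - c)) (hW : 0 ≤ W) (hW' : W ≤ A * (t ^ be * √s))
    (hR : 0 ≤ R) (hR' : R ≤ A * (t ^ (-ka) * √s)) (hm : 0 ≤ m) (hm' : m ≤ A * (t ^ (-ρ) * s))
    (hm0' : m0 ≤ A * t ^ μ) (hτ0 : 0 ≤ τ) (hτ : τ ≤ m0 * (m + s))
    (hCN : 0 ≤ CN) (hN : (1 / 2 : ℝ) ^ N ≤ t ^ x) (hN2 : (N : ℝ) ^ 2 ≤ CN * t ^ (-δ))
    (hc1 : 0 ≤ c1) (hc2 : 0 ≤ c2) (hc3 : 0 ≤ c3)
    (h1 : y ≤ 2 / 3 * (be - 1) - ka / 3 - 4 / 3 * c)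
    (h2 : y ≤ 3 / 5 * be - 2 / 5 - 2 / 5 * ka - 8 / 5 * c)
    (h3 : y ≤ 7 / 12 * be - 1 / 3 - 5 / 12 * ka - 5 / 3 * c)
    (hz1 : z ≤ 3 / 2 * μ - ρ / 2 - 2 * c) (hz2 : z ≤ x - ρ / 2 - 2 * c) (hz3 : z ≤ y - δ) :
    c1 * (d ^ 2 * e) * (τ * √τ) + c2 * (d ^ 2 * e) * ((1 / 2) ^ N * (m * √m)) +
      c3 * N ^ 2 * e ^ 3 * (m * (d ^ (5 / 3 : ℝ) * (W ^ (7 / 12 : ℝ) * R ^ (5 / 12 : ℝ)) +
        d ^ (8 / 5 : ℝ) * (W ^ (3 / 5 : ℝ) * R ^ (2 / 5 : ℝ)) +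
        d ^ (4 / 3 : ℝ) * (W ^ (2 / 3 : ℝ) * R ^ (1 / 3 : ℝ)))) ≤
    (2 * c1 + c2 + 3 * c3 * CN) * (A ^ 5 * e ^ 3) * (t ^ (2 + z) * (√s * (m + s))) := by
  have hA0 : 0 < A := by linarith
  have he0 : 0 < e := by linarith
  have hs2 : 0 ≤ √s := sqrt_nonneg _
  have hms : m ≤ m + s := by linarith
  have hms0 : 0 ≤ m + s := by linarith
  have he3 : e ≤ e ^ 3 := by nlinarith [sq_nonneg e, mul_le_mul_of_nonneg_left he he0.le]
  have hA25 : A ^ 3 ≤ A ^ 5 := pow_le_pow_right₀ hA (by norm_num)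
  have hd2 : d ^ 2 ≤ A ^ 2 * t ^ (2 - 2 * c) := by
    refine (pow_le_pow_left₀ hd hd' 2).trans (le_of_eq ?_)
    rw [mul_pow, ← rpow_natCast (t ^ (1 - c)), ← rpow_mul ht.le]
    congr 2
    push_cast
    ring
  have hz : ∀ w : ℝ, 2 + z ≤ w → t ^ w ≤ t ^ (2 + z) := fun w hw =>
    rpow_le_rpow_of_exponent_ge ht ht1 hw
  -- first term
  have t1 : c1 * (d ^ 2 * e) * (τ * √τ) ≤
      2 * c1 * (A ^ 5 * e ^ 3) * (t ^ (2 + z) * (√s * (m + s))) := by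
    have k1 := left_root ht ht1 hs hA hρ hm hm' hm0' hτ
    have e1 : t ^ (2 - 2 * c) * t ^ (3 / 2 * μ - ρ / 2) =
        t ^ (2 - 2 * c + (3 / 2 * μ - ρ / 2)) := (rpow_add ht _ _).symm
    calc c1 * (d ^ 2 * e) * (τ * √τ)
        ≤ c1 * ((A ^ 2 * t ^ (2 - 2 * c)) * e) *
          (2 * A ^ 3 * (t ^ (3 / 2 * μ - ρ / 2) * (√s * (m + s)))) := by gcongr
      _ = 2 * c1 * (A ^ 5 * e) * ((t ^ (2 - 2 * c) * t ^ (3 / 2 * μ - ρ / 2)) *
          (√s * (m + s))) := by ring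
      _ ≤ _ := by
          rw [e1]
          have := hz (2 - 2 * c + (3 / 2 * μ - ρ / 2)) (by linarith)
          gcongr
  -- second term
  have t2 : c2 * (d ^ 2 * e) * ((1 / 2) ^ N * (m * √m)) ≤
      c2 * (A ^ 5 * e ^ 3) * (t ^ (2 + z) * (√s * (m + s))) := by
    have k1 := mass_root ht hs hA hm hm'
    have e1 : t ^ (2 - 2 * c) * (t ^ x * t ^ (-(ρ / 2))) =
        t ^ (2 - 2 * c + (x + -(ρ / 2))) := by rw [← rpow_add ht, ← rpow_add ht]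
    calc c2 * (d ^ 2 * e) * ((1 / 2) ^ N * (m * √m))
        ≤ c2 * ((A ^ 2 * t ^ (2 - 2 * c)) * e) *
          (t ^ x * (A * (t ^ (-(ρ / 2)) * (√s * (m + s))))) := by
          have k2 : A * (t ^ (-(ρ / 2)) * (√s * m)) ≤ A * (t ^ (-(ρ / 2)) * (√s * (m + s))) := by
            gcongr
          have k3 := k1.trans k2
          have k4 : 0 ≤ m * √m := mul_nonneg hm (sqrt_nonneg _)
          have k5 : 0 ≤ t ^ x := rpow_nonneg ht.le _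
          gcongr
      _ = c2 * (A ^ 3 * e) * ((t ^ (2 - 2 * c) * (t ^ x * t ^ (-(ρ / 2)))) *
          (√s * (m + s))) := by ring
      _ ≤ _ := by
          rw [e1]
          have := hz (2 - 2 * c + (x + -(ρ / 2))) (by linarith)
          gcongr
  -- third term
  have t3 : c3 * N ^ 2 * e ^ 3 * (m * (d ^ (5 / 3 : ℝ) * (W ^ (7 / 12 : ℝ) * R ^ (5 / 12 : ℝ)) +
        d ^ (8 / 5 : ℝ) * (W ^ (3 / 5 : ℝ) * R ^ (2 / 5 : ℝ)) +
        d ^ (4 / 3 : ℝ) * (W ^ (2 / 3 : ℝ) * R ^ (1 / 3 : ℝ)))) ≤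
      3 * c3 * CN * (A ^ 5 * e ^ 3) * (t ^ (2 + z) * (√s * (m + s))) := by
    have k1 := u4_num ht ht1 hs hA hd hd' hW hW' hR hR' h1 h2 h3
    have k0 : 0 ≤ d ^ (5 / 3 : ℝ) * (W ^ (7 / 12 : ℝ) * R ^ (5 / 12 : ℝ)) +
        d ^ (8 / 5 : ℝ) * (W ^ (3 / 5 : ℝ) * R ^ (2 / 5 : ℝ)) +
        d ^ (4 / 3 : ℝ) * (W ^ (2 / 3 : ℝ) * R ^ (1 / 3 : ℝ)) := by positivity
    have e1 : t ^ (-δ) * t ^ (2 + y) = t ^ (-δ + (2 + y)) := (rpow_add ht _ _).symm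
    calc _ ≤ c3 * (CN * t ^ (-δ)) * e ^ 3 * (m * (3 * A ^ 3 * (t ^ (2 + y) * √s))) := by gcongr
      _ = 3 * c3 * CN * (A ^ 3 * e ^ 3) * ((t ^ (-δ) * t ^ (2 + y)) * (√s * m)) := by ring
      _ ≤ _ := by
          rw [e1]
          have := hz (-δ + (2 + y)) (by linarith)
          gcongr
  calc _ ≤ 2 * c1 * (A ^ 5 * e ^ 3) * (t ^ (2 + z) * (√s * (m + s))) +
        c2 * (A ^ 5 * e ^ 3) * (t ^ (2 + z) * (√s * (m + s))) +
        3 * c3 * CN * (A ^ 5 * e ^ 3) * (t ^ (2 + z) * (√s * (m + s))) :=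
        add_le_add (add_le_add t1 t2) t3
    _ = _ := by ring

/-! ### The removed parts and the stopped part -/

/-- **one removed part** (136's `pevm_le`, right side): ratio `θ`, area `κ`, local norms `a`. -/
theorem rem_num {t s A P a θ κ m c x μ ρ z : ℝ} (ht : 0 < t) (ht1 : t ≤ 1) (hs : 0 < s)
    (hA : 1 ≤ A) (hP' : P ≤ A * t ^ (1 - c)) (ha : 0 ≤ a) (ha' : a ≤ A * t ^ (-ρ))
    (hθ : 0 ≤ θ) (hθ' : θ ≤ A * t ^ x) (hκ : 0 ≤ κ) (hκ' : κ ≤ A * t ^ (-μ)) (hm : 0 ≤ m)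
    (hm' : m ≤ A) (hz : z ≤ 3 / 8 * x - μ / 4 - ρ - c) :
    P * (3 * a * s ^ (5 / 4 : ℝ) * (θ ^ (3 / 8 : ℝ) * κ ^ (1 / 4 : ℝ) * m)) ≤
      3 * A ^ 4 * (t ^ (1 + z) * s ^ (5 / 4 : ℝ)) := by
  have hA0 : 0 < A := by linarith
  have e1 : θ ^ (3 / 8 : ℝ) ≤ A ^ (3 / 8 : ℝ) * t ^ (x * (3 / 8)) := by
    refine (rpow_le_rpow hθ hθ' (by norm_num)).trans (le_of_eq ?_)
    rw [mul_rpow hA0.le (rpow_nonneg ht.le _), ← rpow_mul ht.le]
  have e2 : κ ^ (1 / 4 : ℝ) ≤ A ^ (1 / 4 : ℝ) * t ^ (-μ * (1 / 4)) := by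
    refine (rpow_le_rpow hκ hκ' (by norm_num)).trans (le_of_eq ?_)
    rw [mul_rpow hA0.le (rpow_nonneg ht.le _), ← rpow_mul ht.le]
  have e3 : A ^ (3 / 8 : ℝ) * A ^ (1 / 4 : ℝ) ≤ A := by
    rw [← rpow_add hA0]
    calc A ^ (3 / 8 + 1 / 4 : ℝ) ≤ A ^ (1 : ℝ) := rpow_le_rpow_of_exponent_le hA (by norm_num)
      _ = A := rpow_one A
  have s0 : 0 ≤ s ^ (5 / 4 : ℝ) := rpow_nonneg hs.le _
  have p1 : 0 ≤ θ ^ (3 / 8 : ℝ) := rpow_nonneg hθ _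
  have p2 : 0 ≤ κ ^ (1 / 4 : ℝ) := rpow_nonneg hκ _
  have q1 : 0 ≤ t ^ (x * (3 / 8)) := rpow_nonneg ht.le _
  have q2 : 0 ≤ t ^ (-μ * (1 / 4)) := rpow_nonneg ht.le _
  have q3 : 0 ≤ t ^ (1 - c) := rpow_nonneg ht.le _
  have q4 : 0 ≤ t ^ (-ρ) := rpow_nonneg ht.le _
  have q5 : 0 ≤ A ^ (3 / 8 : ℝ) := rpow_nonneg hA0.le _
  have q6 : 0 ≤ A ^ (1 / 4 : ℝ) := rpow_nonneg hA0.le _
  have e4 : t ^ (1 - c) * (t ^ (-ρ) * (t ^ (x * (3 / 8)) * t ^ (-μ * (1 / 4)))) =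
      t ^ (1 - c + (-ρ + (x * (3 / 8) + -μ * (1 / 4)))) := by
    rw [← rpow_add ht, ← rpow_add ht, ← rpow_add ht]
  calc P * (3 * a * s ^ (5 / 4 : ℝ) * (θ ^ (3 / 8 : ℝ) * κ ^ (1 / 4 : ℝ) * m))
      ≤ (A * t ^ (1 - c)) * (3 * (A * t ^ (-ρ)) * s ^ (5 / 4 : ℝ) *
        ((A ^ (3 / 8 : ℝ) * t ^ (x * (3 / 8))) * (A ^ (1 / 4 : ℝ) * t ^ (-μ * (1 / 4))) * A)) := by
        gcongr
    _ = 3 * (A ^ 3 * (A ^ (3 / 8 : ℝ) * A ^ (1 / 4 : ℝ))) *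
        ((t ^ (1 - c) * (t ^ (-ρ) * (t ^ (x * (3 / 8)) * t ^ (-μ * (1 / 4))))) *
          s ^ (5 / 4 : ℝ)) := by ring
    _ ≤ 3 * (A ^ 3 * A) * (t ^ (1 + z) * s ^ (5 / 4 : ℝ)) := by
        rw [e4]
        have h1 : t ^ (1 - c + (-ρ + (x * (3 / 8) + -μ * (1 / 4)))) ≤ t ^ (1 + z) :=
          rpow_le_rpow_of_exponent_ge ht ht1 (by linarith)
        gcongr
    _ = _ := by ring

/-- **the gain of the restart** (579's `gR L = 1153 ^ 3 * L ^ (-1/60)`) for `L = t ^ (-ρ)` -/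
theorem rest_num {t s A P c ρ z : ℝ} (ht : 0 < t) (ht1 : t ≤ 1) (hs : 0 < s)
    (hA : 1 ≤ A) (hP' : P ≤ A * t ^ (1 - c)) (hz : z ≤ ρ / 60 - c) :
    P * (1153 ^ 3 * (t ^ (-ρ)) ^ (-(1 / 60) : ℝ)) * s ^ (5 / 4 : ℝ) ≤
      1153 ^ 3 * A * (t ^ (1 + z) * s ^ (5 / 4 : ℝ)) := by
  have hA0 : 0 < A := by linarith
  have e1 : (t ^ (-ρ)) ^ (-(1 / 60) : ℝ) = t ^ (ρ / 60) := by
    rw [← rpow_mul ht.le]
    congr 1
    ring
  have e2 : t ^ (1 - c) * t ^ (ρ / 60) = t ^ (1 - c + ρ / 60) := (rpow_add ht _ _).symm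
  have s0 : 0 ≤ s ^ (5 / 4 : ℝ) := rpow_nonneg hs.le _
  have q1 : 0 ≤ t ^ (ρ / 60) := rpow_nonneg ht.le _
  rw [e1]
  calc P * (1153 ^ 3 * t ^ (ρ / 60)) * s ^ (5 / 4 : ℝ)
      ≤ (A * t ^ (1 - c)) * (1153 ^ 3 * t ^ (ρ / 60)) * s ^ (5 / 4 : ℝ) := by gcongr
    _ = 1153 ^ 3 * A * ((t ^ (1 - c) * t ^ (ρ / 60)) * s ^ (5 / 4 : ℝ)) := by ring
    _ ≤ _ := by
        rw [e2]
        have h1 : t ^ (1 - c + ρ / 60) ≤ t ^ (1 + z) :=
          rpow_le_rpow_of_exponent_ge ht ht1 (by linarith)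
        gcongr

/-! ### The outer exponents -/

/-- **971's `mo4_gain` at the best parameter**: `κ = t ^ (2 r / 5)` -/
theorem kap_num {t ρ r C : ℝ} (ht : 0 < t) (ht1 : t ≤ 1) (hr : 0 ≤ r) (hρ : ρ ≤ C * t ^ r) :
    ∃ κ : ℝ, 0 < κ ∧ κ ≤ 1 ∧
      10369 * κ + ρ * (κ⁻¹ * (√κ)⁻¹) ≤ (10369 + C) * t ^ (2 * r / 5) := by
  refine ⟨t ^ (2 * r / 5), rpow_pos_of_pos ht _, rpow_le_one ht.le ht1 (by positivity), ?_⟩
  have e1 : (t ^ (2 * r / 5))⁻¹ * (√(t ^ (2 * r / 5)))⁻¹ = t ^ (-(3 * r / 5)) := by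
    rw [sqrt_eq_rpow, ← rpow_mul ht.le, ← rpow_neg ht.le, ← rpow_neg ht.le, ← rpow_add ht]
    congr 1
    ring
  have e2 : t ^ r * t ^ (-(3 * r / 5)) = t ^ (2 * r / 5) := by
    rw [← rpow_add ht]
    congr 1
    ring
  rw [e1]
  have h1 : ρ * t ^ (-(3 * r / 5)) ≤ C * t ^ (2 * r / 5) := by
    calc ρ * t ^ (-(3 * r / 5)) ≤ (C * t ^ r) * t ^ (-(3 * r / 5)) :=
          mul_le_mul_of_nonneg_right hρ (rpow_nonneg ht.le _)
      _ = C * (t ^ r * t ^ (-(3 * r / 5))) := by ring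
      _ = _ := by rw [e2]
  linarith

/-- **the outer exponents** (501's `CFOut`): a gain `G0 - A c` of CE1, for every loss `c ≤ c0` of
the companions, is enough.  `r` is the exponent of the generic value `ρ`, `d` that of the fourth
moments. -/
theorem exists_outer {G0 A c0 : ℝ} (hG : 0 < G0) (hA : 0 ≤ A) (hc0 : 0 < c0) :
    ∃ g c a a' r d : ℝ, 0 < g ∧ g ≤ c ∧ c ≤ 1 ∧ c ≤ c0 ∧ 0 ≤ a ∧ 0 ≤ a' ∧ 0 < r ∧
      d = 2 * r / 5 ∧ 2 * c < d ∧ r ≤ G0 - A * c - g ∧ r ≤ a - 1 ∧ r ≤ a' - 1 := by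
  set G := min G0 (min 1 c0) with hGd
  have h1 : 0 < G := lt_min hG (lt_min one_pos hc0)
  have h2 : G ≤ 1 := (min_le_right _ _).trans (min_le_left _ _)
  have h2' : G ≤ c0 := (min_le_right _ _).trans (min_le_right _ _)
  have h3 : G ≤ G0 := min_le_left _ _
  have h4 : 0 < 20 * (A + 2) := by positivity
  set c := G / (20 * (A + 2)) with hc
  have h5 : 0 < c := div_pos h1 h4
  have h6 : c * (20 * (A + 2)) = G := div_mul_cancel₀ G h4.ne'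
  have h7 := mul_nonneg h5.le hA
  refine ⟨c, c, 1 + G / 2, 1 + G / 2, G / 2, 2 * (G / 2) / 5, h5, le_rfl, ?_, ?_, by positivity,
    by positivity, by positivity, rfl, ?_, ?_, by linarith, by linarith⟩ <;> nlinarith

/-! ### The explicit choice of the inner exponents -/

/-- the exponent of the potential threshold `W = t ^ be s ^ (1/2)` -/
def xbe : ℝ := 3 / 2

/-- the exponent of the mass threshold `m0 = t ^ xmu` -/
def xmu : ℝ := 1 / 8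

/-- the exponent of the row threshold `K' = t ^ (-xka) s ^ (1/2)` -/
def xka : ℝ := 1 / 4

/-- the exponent of the alive threshold `Λ = t ^ (-xrho)` -/
def xrho : ℝ := 1 / 5120

/-- the gain of CE1: that of the restart, half of it is kept for constants and logarithms -/
def xG : ℝ := xrho / 480

/-- the bound of the loss `c'` of the companions -/
def xc : ℝ := xrho / 9600

theorem xrho_pos : 0 < xrho := by unfold xrho; norm_num

theorem xG_pos : 0 < xG := by unfold xG xrho; norm_num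

theorem xc_pos : 0 < xc := by unfold xc xrho; norm_num

/-- **(I)**: the three powers of the U4 estimate, with 40 powers of the alive threshold -/
theorem xI {c : ℝ} (hc : c ≤ xc) :
    3 / 2 * xmu + 1 / 32 ≤ 2 / 3 * (xbe - 1) - xka / 3 - 4 / 3 * c - 40 * xrho ∧
      3 / 2 * xmu + 1 / 32 ≤ 3 / 5 * xbe - 2 / 5 - 2 / 5 * xka - 8 / 5 * c - 40 * xrho ∧
      3 / 2 * xmu + 1 / 32 ≤ 7 / 12 * xbe - 1 / 3 - 5 / 12 * xka - 5 / 3 * c - 40 * xrho := by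
  unfold xbe xmu xka xrho xc at *
  unfold xrho at hc
  refine ⟨by linarith, by linarith, by linarith⟩

/-- **(IV)**: the mixed charge of the events, both forms -/
theorem xIV : xG + 1 / 8 ≤ 1 - xbe / 2 - xmu / 2 ∧ xG - 1 / 20 ≤ 1 - xbe / 2 - 9 / 4 * xmu := by
  unfold xG xbe xmu xrho
  constructor <;> norm_num

/-- **(V)**: the removed directions -/
theorem xV {c : ℝ} (hc : c ≤ xc) :
    xG + 1 / 10 ≤ 3 / 8 * (2 - xbe) - xmu / 4 - c - 40 * xrho := by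
  unfold xG xbe xmu xrho xc at *
  unfold xrho at hc
  linarith

/-- **(VI)**: the removed rows -/
theorem xVI {c : ℝ} (hc : c ≤ xc) : xG + 1 / 20 ≤ 3 / 8 * xka - xmu / 4 - c - 40 * xrho := by
  unfold xG xka xmu xrho xc at *
  unfold xrho at hc
  linarith

/-- **(VII)**: the composite -/
theorem xVII {c : ℝ} (hc : c ≤ xc) : xG + 1 / 200 ≤ xmu / 8 - c - 40 * xrho := by
  unfold xG xmu xrho xc at *
  unfold xrho at hc
  linarith

/-- **(VIII)**: the stopped cubes, `Λ = L ^ 4` -/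
theorem xVIII {c : ℝ} (hc : c ≤ xc) : xG + 10 * c ≤ xrho / 4 / 60 - c := by
  unfold xG xrho xc at *
  unfold xrho at hc
  linarith

end

end Vale.Agent.P141.H578
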